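import Vale.Agent.P073Y.Wg.Faces
import Vale.Agent.P073Y.Wf.Cells

/-!
# The bands of the new discs, with softly frozen cells
-/

open Set Metric Topology Filter
open scoped NNReal

namespace P073.Wg

open P073.Bd (Band I cl Match Sgn Comm Ext PwLip Chart Lev corner Gen1 bas)
open P073.Wb P073.Wb.CellsAux
open P073.Wf (closed_rest exists_on one_cell')

/-- the Lipschitz constant of a level function on a set with a chart -/
theorem lip_ch {E : Type} [NormedAddCommGroup E] [NormedSpace ℝ E] {n : ℕ} {C B : Set E}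
    {g : Band E} {M₁ M₂ L L' : ℝ≥0} (hC : Chart n C B M₁ M₂) (hc : IsClosed C) (hg : g.On C)
    (h : LipschitzOnWith L' g.u g.B) (hL : M₁ * M₂ * L' ≤ L) : LipschitzOnWith L g.u C := by
  classical
  obtain ⟨-, φ, -, h1, h2⟩ := hC
  have cl : ∀ Y : Set E, IsClosed Y → IsClosed (closedBall 0 1 ∩ φ.invFun ⁻¹' Y) := fun Y hY =>
    h2.continuousOn.preimage_isClosed_of_isClosed isClosed_closedBall hY
  have k : ∀ a : ℝ, IsClosed (closedBall 0 1 ∩ φ.invFun ⁻¹' (C ∩ g.u ⁻¹' {a})) ∧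
      LipschitzOnWith (L' * M₂) (g.u ∘ φ.invFun)
        (closedBall 0 1 ∩ φ.invFun ⁻¹' (C ∩ g.u ⁻¹' {a})) := fun a =>
    ⟨cl _ (hg.upl.1.preimage_isClosed_of_isClosed hc isClosed_singleton), fun x hx y hy => by
      rw [show (g.u ∘ φ.invFun) x = a from hx.2.2, show (g.u ∘ φ.invFun) y = a from hy.2.2,
        edist_self]
      exact zero_le⟩
  have h3 : LipschitzOnWith (L' * M₂) (g.u ∘ φ.invFun) (closedBall 0 1) := by
    refine Bd.lipg.1 (convex_closedBall 0 1) ⟨{closedBall 0 1 ∩ φ.invFun ⁻¹' g.B,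
      closedBall 0 1 ∩ φ.invFun ⁻¹' (C ∩ g.u ⁻¹' {1}),
      closedBall 0 1 ∩ φ.invFun ⁻¹' (C ∩ g.u ⁻¹' {-1})}, fun Y hY => ?_, fun x hx => ?_⟩
    · simp only [Finset.mem_insert, Finset.mem_singleton] at hY
      rcases hY with rfl | rfl | rfl
      exacts [⟨cl _ hg.ok.cpt.isClosed, h.comp (h2.mono inter_subset_left) fun _ hy => hy.2⟩,
        k 1, k (-1)]
    · simp only [Finset.mem_insert, Finset.mem_singleton, mem_iUnion, exists_prop]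
      have hx' := φ.mapsTo_inv hx
      by_cases hB : φ.invFun x ∈ g.B
      · exact ⟨_, Or.inl rfl, hx, hB⟩
      · rcases hg.out _ hx' hB with e | e
        · exact ⟨_, Or.inr (Or.inl rfl), hx, hx', e⟩
        · exact ⟨_, Or.inr (Or.inr rfl), hx, hx', e⟩
  have h4 := (h3.comp h1 φ.mapsTo).weaken (show L' * M₂ * M₁ ≤ L from le_of_eq_of_le (by ring) hL)
  intro x hx y hy
  have h5 := h4 hx hy
  simpa only [Function.comp_apply, φ.left_inv hx, φ.left_inv hy] using h5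

variable {X : Base} {c₁ c₀ : ℝ≥0} {Fr : Frame X c₁} {D : X.ι → Set E3}
  {T : Trace Fr D} {β : T.α → Band E3}

variable (S : SoftG Fr c₀)

/-- the data of a natural disc -/
def Dsc (T : Trace Fr D) (β : T.α → Band E3) (k : T.κ) (j : X.ι) (d : Set E3) (g : Band E3) :
    Prop :=
  IsPreconnected d ∧ d ⊆ (S.ν j).W ∩ X.K.cell (T.cel k) ∧
  IsClosed d ∧ IsClosed (((S.ν j).W ∩ X.K.cell (T.cel k)) \ d) ∧
  d ∩ X.K.bd (T.cel k) = ⋃ a ∈ T.s k, T.A a ∧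
  (∀ x ∈ g.B, x ∈ (S.ν j).half.B ∩ X.K.cell (T.cel k) ∧ (S.ν j).M (x, 0) ∈ d) ∧
  Match g (S.ν j).half ∧ g.On (X.K.cell (T.cel k)) ∧ ConBall 2 g.W (⋃ a ∈ T.s k, (β a).W) ∧
  g.B ∩ X.K.bd (T.cel k) = ⋃ a ∈ T.s k, (β a).half.B ∧ (∀ a ∈ T.s k, Match (β a).half g) ∧
  LipschitzOnWith (X.L (T.cel k)) g.u (X.K.cell (T.cel k))

theorem discS (hN : S.NatF T β) (k : T.κ) (hf : T.cel k ∈ S.fro) :
    ∃ j d g, Dsc S T β k j d g := by
  have hc := T.dim_cel k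
  have hU := X.thin _ hc
  have hB := bas E3
  have h0 : (0:ℝ) ∈ I := ⟨by norm_num, by norm_num⟩
  have hJ : IsCircle (⋃ a ∈ T.s k, T.A a) := (T.tile k).1.isCircleD
  have hfa : ∀ a ∈ T.s k, T.face a ∈ S.fro := fun a ha => S.face _ hf _ (T.mem_s k a ha).2
  have hbd : ∀ a ∈ T.s k, X.K.cell (T.face a) ⊆ X.K.bd (T.cel k) := fun a ha =>
    X.K.subset_bd_of_dim_lt (T.mem_s k a ha).2 (by rw [T.dim_face, hc]; norm_num)
  have hJb : (⋃ a ∈ T.s k, T.A a) ⊆ X.K.bd (T.cel k) :=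
    iUnion₂_subset fun a ha x hx => hbd a ha (T.sub a hx).2
  have hJc := (arcs.2.2.2.2.2.1 (p := 0) hJ).1
  obtain ⟨j, hj⟩ := one_label S hf hU hJc.isPreconnected hJc.nonempty
    (hJb.trans (X.K.bd_subset _)) (iUnion₂_subset fun a ha x hx => by
      obtain ⟨j, h1, -⟩ := hN.1 a (hfa a ha)
      exact mem_iUnion.2 ⟨j, h1 hx⟩)
  obtain ⟨𝒟, d1, d2, d3⟩ := S.discs j _ hf hc
  obtain ⟨x₀, hx₀⟩ := hJc.nonempty
  obtain ⟨d, hd, hxd⟩ := mem_iUnion₂.1 (d1.le (hj hx₀))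
  have hcl : ∀ d ∈ 𝒟, IsClosed d := fun d hd => (d3 d hd).isClosed
  have hJd : (⋃ a ∈ T.s k, T.A a) ⊆ d :=
    Sw2.sub_comp hcl d2 hJc.isPreconnected (hj.trans d1.le) hd hx₀ hxd
  have hJe : d ∩ X.K.bd (T.cel k) = ⋃ a ∈ T.s k, T.A a :=
    (arcs.2.2.2.1 hJ (d3 d hd).isCircleD (subset_inter hJd hJb)).symm
  have hdW : d ⊆ (S.ν j).W ∩ X.K.cell (T.cel k) := fun x hx => d1.ge (mem_biUnion hd hx)
  have hrest : IsClosed (((S.ν j).W ∩ X.K.cell (T.cel k)) \ d) := d1 ▸ closed_rest hcl d2 hd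
  have hon := hB.half_on (S.on j)
  have hkeep : (S.ν j).half.Keeps (X.K.cell (T.cel k)) := fun x hx s hs =>
    S.keep j _ hf x hx.1 _ (Bd.Bas1.half_mem hs)
  obtain ⟨r1, r2, r3⟩ := hB.restr hon.ok (hB.on_in hon) (S.sub _ hf) (X.K.isCompact_cell _)
    (X.K.locCone_cell _) hkeep (V := d) (by rw [hB.half_W]; exact hdW) (d3 d hd).isCompact
    (d3 d hd).locCone (by rw [hB.half_W]; exact hrest)
  obtain ⟨g, g1, g2, g3⟩ := exists_on (hc ▸ X.K.ball (T.cel k)) r1 r2 (r3.symm ▸ d3 d hd)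
  have hM : ∀ x, (S.ν j).half.M (x, 0) = (S.ν j).M (x, 0) := fun x => by
    show (S.ν j).M (x, 0 / 2) = _
    rw [zero_div]
  have hg : ∀ x, x ∈ g.B ↔ x ∈ (S.ν j).half.B ∩ X.K.cell (T.cel k) ∧ (S.ν j).M (x, 0) ∈ d :=
    fun x => by rw [g2, ← hM]; rfl
  have hp : Sat.Part ((S.ν j).half.restr (X.K.cell (T.cel k)) d) g := .of_sgn g3 g2.ge
  have hm : Match (S.ν j).half g := fun x _ hx' => hp.2 x (g2.le hx') hx'
  have hgW : g.W = d := by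
    rw [← r3]
    exact Subset.antisymm (fun x hx => (hp.mem_W (g2.le hx.1)).1 hx) hp.W_sub
  -- the arcs of the circle have the label `j`
  have hna : ∀ a ∈ T.s k, (β a).W = T.A a ∧ (∀ x, x ∈ (β a).B ↔
      x ∈ (S.ν j).B ∩ X.K.cell (T.face a) ∧ (S.ν j).M (x, 0) ∈ T.A a) ∧
      Match (β a) (S.ν j) := fun a ha => by
    obtain ⟨j', h1, h2⟩ := hN.1 a (hfa a ha)
    have e : j' = j := by
      by_contra hne
      have h3 := hj (mem_biUnion ha (T.arc a).left_mem)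
      exact (S.disj j' j hne _ hf hU).notMem_of_mem_left ⟨(h1 (T.arc a).left_mem).1, h3.1.1⟩ h3.2
    exact e ▸ h2
  have hpa : ∀ a ∈ T.s k, Sat.Part (β a) (S.ν j) := fun a ha =>
    ⟨fun x hx => (((hna a ha).2.1 x).1 hx).1.1, (hna a ha).2.2⟩
  refine ⟨j, d, g, (d3 d hd).isConnected.isPreconnected, hdW, hcl d hd, hrest, hJe,
    fun x hx => (hg x).1 hx, hB.match_symm hm, g1, ?_, ?_, fun a ha x hx hx' => ?_, ?_⟩
  · rw [hgW, iUnion₂_congr fun a ha => (hna a ha).1, ← hJe]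
    exact d3 d hd
  · refine Subset.antisymm (fun x hx => ?_) (iUnion₂_subset fun a ha x hx => ?_)
    · obtain ⟨h1, h2⟩ := (hg x).1 hx.1
      have h3 : (S.ν j).M (x, 0) ∈ d ∩ X.K.bd (T.cel k) :=
        ⟨h2, keep_bd S j hf x h1.1.1 0 h0 hx.2⟩
      obtain ⟨a, ha, h4⟩ := mem_iUnion₂.1 (hJe.le h3)
      have h5 : x ∈ X.K.cell (T.face a) :=
        (hB.keeps_iff (S.on j).ok (S.keep j _ (hfa a ha)) x h1.1.1 0 h0).1 (T.sub a h4).2
      have h6 : x ∈ (β a).B := ((hna a ha).2.1 x).2 ⟨⟨h1.1.1, h5⟩, h4⟩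
      exact mem_biUnion ha (((hpa a ha).mem_half h6).1 h1.1)
    · obtain ⟨h1, h2⟩ := ((hna a ha).2.1 x).1 hx.1
      exact ⟨(hg x).2 ⟨⟨((hpa a ha).mem_half hx.1).2 hx, (T.mem_s k a ha).2 h1.2⟩,
        hJd (mem_biUnion ha h2)⟩, hbd a ha h1.2⟩
  · exact match_via (hB.match_symm (hpa a ha).half.2) hm ((hg x).1 hx').1.1 hx hx'
  · obtain ⟨L', hL, hL'⟩ := S.lip₃ j _ hf hc
    refine lip_ch (X.chart _ (by omega)) (X.K.isClosed_cell _) g1 ?_ hL'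
    obtain ⟨ε, hε, H⟩ := g3
    have e : ∀ x ∈ g.B, g.u x = ε * (2 * (S.ν j).u x) := fun x hx => by
      rw [(H x (g2.le hx)).1]
      exact congrArg (ε * ·) (Bd.Bas1.half_u ((hg x).1 hx).1.1)
    intro x hx y hy
    have h1 := hL ⟨((hg x).1 hx).1.1.1, ((hg x).1 hx).1.2⟩
      ⟨((hg y).1 hy).1.1.1, ((hg y).1 hy).1.2⟩
    rw [e x hx, e y hy]
    rcases hε with rfl | rfl
    · simpa only [one_mul] using h1
    · simpa only [neg_one_mul, edist_neg_neg] using h1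

theorem disc_disj (hS : State Fr D) {k l : T.κ} (hkl : k ≠ l) (e : T.cel l = T.cel k)
    (hf : T.cel k ∈ S.fro) {j j' : X.ι} {d d' : Set E3} {g g' : Band E3}
    (h : Dsc S T β k j d g) (h' : Dsc S T β l j' d' g') : Disjoint g.B g'.B := by
  refine disjoint_left.2 fun x h1 h2 => ?_
  obtain ⟨-, -, a3, a4, a5, a6, -⟩ := h
  obtain ⟨b1, b2, -, -, b5, b6, -⟩ := h'
  rw [e] at b2 b5 b6
  by_cases hjj : j = j'
  · subst hjj
    rcases isPreconnected_iff_subset_of_disjoint_closed.1 b1 _ _ a3 a4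
      (fun y hy => (em _).imp id fun h' => ⟨b2 hy, h'⟩)
      (eq_empty_of_forall_notMem fun y hy => hy.2.2.2 hy.2.1) with h3 | h3
    · obtain ⟨y, hy⟩ := bdry_nonempty (T.tile l).1
      obtain ⟨a', ha', -⟩ := mem_iUnion₂.1 hy
      have h4 := b5.ge (mem_biUnion ha' (T.arc a').left_mem)
      obtain ⟨a, ha, h5⟩ := mem_iUnion₂.1 (a5.le ⟨h3 h4.1, h4.2⟩)
      exact hkl (same_circle hS T ha ha' e.symm h5 (T.arc a').left_mem
        (bd_skel T a' (end_mem T (Or.inl rfl)).2))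
    · exact (h3 (b6 x h2).2).2 (a6 x h1).2
  · exact (S.disj j j' hjj _ hf (X.thin _ (T.dim_cel k))).notMem_of_mem_left
      ⟨(a6 x h1).1.1.1, (b6 x h2).1.1.1⟩ (a6 x h1).1.2

theorem cellS (h : Bd.CELLM c₀) (hA : Bd.ARCISO) (hS : State Fr D) (hF : Faces T β)
    (hN : S.NatF T β) (c : X.K.ι) (hc : X.K.dim c = 3) : ∃ γ : {k // T.cel k = c} → Band E3,
    (∀ k, (γ k).On (X.K.cell c) ∧ ConBall 2 (γ k).W (⋃ a ∈ T.s k.1, (β a).W) ∧
      (γ k).B ∩ X.K.bd c = ⋃ a ∈ T.s k.1, (β a).half.B ∧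
      (∀ a ∈ T.s k.1, Match (β a).half (γ k)) ∧
      LipschitzOnWith (X.L c) (γ k).u (X.K.cell c)) ∧
    (∀ k l, k ≠ l → Comm (γ k) (γ l) ∧
      (X.fam (T.clab k.1) = X.fam (T.clab l.1) → Disjoint (γ k).B (γ l).B) ∧
      ∀ x ∈ (γ k).W ∩ (γ l).W,
        ∃ Z, Z ⊆ (γ k).W ∩ (γ l).W ∧ IsPreconnected Z ∧ x ∈ Z ∧ (Z ∩ X.K.bd c).Nonempty) ∧
    (c ∈ S.fro → (∀ k, ∃ j, (γ k).B ⊆ (S.ν j).half.B ∧ Match (γ k) (S.ν j).half) ∧
      ∀ k l, k ≠ l → Disjoint (γ k).B (γ l).B) := by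
  by_cases hf : c ∈ S.fro
  swap
  · obtain ⟨γ, h1, h2⟩ := one_cell' h hA hS hF c hc (S.L_ge c (by omega) hf (X.thin c hc))
    exact ⟨γ, h1, h2, fun h' => absurd h' hf⟩
  choose j d g hg using fun k : {k // T.cel k = c} => discS S hN k.1 (k.2.symm ▸ hf)
  have hdis : ∀ k l, k ≠ l → Disjoint (g k).B (g l).B := fun k l hkl =>
    disc_disj S hS (fun e => hkl (Subtype.ext e)) (l.2.trans k.2.symm) (k.2.symm ▸ hf) (hg k) (hg l)
  refine ⟨g, ?_, fun k l hkl => ⟨(bas E3).comm_of_disjoint (hg k).2.2.2.2.2.2.2.1.ok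
    (hdis k l hkl), fun _ => hdis k l hkl, fun x hx =>
      absurd hx.2.1 ((hdis k l hkl).notMem_of_mem_left hx.1.1)⟩,
    fun _ => ⟨fun k => ⟨j k, fun x hx => ((hg k).2.2.2.2.2.1 x hx).1.1, (hg k).2.2.2.2.2.2.1⟩,
      hdis⟩⟩
  rintro ⟨k, rfl⟩
  exact (hg ⟨k, rfl⟩).2.2.2.2.2.2.2

theorem cellsG_of {c : ℝ≥0} (h : Bd.CELLM c) (hA : Bd.ARCISO) : CELLSG c := by
  intro X c₁ Fr S D hS T β hF hN
  choose γ g1 g2 g3 using fun c hc => cellS S h hA hS hF hN c hc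
  have key : ∀ c hc l (e : T.cel l = c),
      γ (T.cel l) (T.dim_cel l) ⟨l, rfl⟩ = γ c hc ⟨l, e⟩ := by
    intro c hc l e
    subst e
    rfl
  have pair : ∀ k l, k ≠ l → ∀ e : T.cel k = T.cel l,
      (⟨k, rfl⟩ : {j // T.cel j = T.cel k}) ≠ ⟨l, e.symm⟩ :=
    fun k l hkl _ e' => hkl (congrArg Subtype.val e')
  refine ⟨fun k => γ (T.cel k) (T.dim_cel k) ⟨k, rfl⟩, ⟨fun k => (g1 _ _ _).1,
    fun k => (g1 _ _ _).2.1, fun k => (g1 _ _ _).2.2.1,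
    fun k => (g1 (T.cel k) (T.dim_cel k) ⟨k, rfl⟩).2.2.2.1,
    fun k l hkl e => ?_, fun k l hkl e => ?_, fun k l hkl e => ?_, fun k => (g1 _ _ _).2.2.2.2⟩,
    fun k hk => (g3 _ _ hk).1 ⟨k, rfl⟩, fun k l hkl e hk => ?_⟩
  · rw [key _ (T.dim_cel k) l e.symm]
    exact (g2 _ _ _ _ (pair k l hkl e)).1
  · rw [key _ (T.dim_cel k) l e.symm]
    exact (g2 _ _ _ _ (pair k l hkl e)).2.1
  · rw [key _ (T.dim_cel k) l e.symm]
    exact (g2 _ _ _ _ (pair k l hkl e)).2.2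
  · show Disjoint (γ _ _ ⟨k, rfl⟩).B (γ _ _ ⟨l, rfl⟩).B
    rw [key _ (T.dim_cel k) l e.symm]
    exact (g3 _ _ hk).2 _ _ (pair k l hkl e)

end P073.Wg
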