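import Vale.Agent.P073Y.Wg.Defs
import Vale.Agent.P073Y.Fi.Init1s

/-!
# Spreading the points on the free wires
-/

open Set Metric Topology Filter
open scoped NNReal

namespace P073.Wg

open P073.Bd (Band I cl Match Sgn Comm Ext PwLip Chart Lev corner Gen1)
open P073.Wb P073.Wb.Init1
open P073.Wf (dom evenF)
open P073.Fi.Init1s (zones)

/-- transport of the input along a homeomorphism which fixes the soft part and keeps the cells -/
theorem RawG.move {X : Base} {c₀ : ℝ≥0} {lo hi : E3} {g : ConHomeo X.Ω (Icc lo hi)}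
    {t : X.ι → ℝ} {lam : ℝ≥0} {fro : Set X.K.ι} {w : X.ι → Band E3} (R : RawG X c₀ g t lam fro w)
    (Θ : ConHomeo X.Ω X.Ω) (b1 : EqOn Θ.toFun id (dom X fro))
    (b2 : ∀ c, Θ.toFun '' X.K.cell c = X.K.cell c) :
    (∀ i, lvl (Θ.symm.trans g) t i = Θ.toFun '' lvl g t i) ∧
      RawG X c₀ (Θ.symm.trans g) t lam fro w ∧ ∀ e, (⋃ i, lvl (Θ.symm.trans g) t i) ∩ X.K.cell e =
        Θ.toFun '' ((⋃ i, lvl g t i) ∩ X.K.cell e) := by
  have hUΩ : X.U ⊆ X.Ω := X.cover ▸ subset_union_right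
  have hKΩ : X.K.carrier ⊆ X.Ω := X.cover ▸ subset_union_left
  have hcΩ : ∀ c, X.K.cell c ⊆ X.Ω := fun c => (X.K.cell_subset_carrier c).trans hKΩ
  have hlΩ : ∀ i, lvl g t i ⊆ X.Ω := fun _ _ hx => hx.1
  have hUd : X.U ⊆ dom X fro := subset_union_left
  have hcd : ∀ c ∈ fro, X.K.cell c ⊆ dom X fro := fun c hc x hx =>
    Or.inr (mem_iUnion₂.2 ⟨c, hc, hx⟩)
  have hdΩ : dom X fro ⊆ X.Ω := union_subset hUΩ (iUnion₂_subset fun c _ => hcΩ c)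
  have b4 : ∀ x ∈ dom X fro, Θ.invFun x = x := fun x hx => by
    have := Θ.left_inv (hdΩ hx)
    rwa [b1 hx] at this
  let g' : ConHomeo X.Ω (Icc lo hi) := Θ.symm.trans g
  have hg : ∀ x ∈ dom X fro, g'.toFun x = g.toFun x := fun x hx => congrArg g.toFun (b4 x hx)
  have hl : ∀ i, lvl g' t i = Θ.toFun '' lvl g t i := fun i => by
    refine Subset.antisymm (fun x hx => ⟨_, ⟨Θ.mapsTo_inv hx.1, hx.2⟩, Θ.right_inv hx.1⟩) ?_
    rintro _ ⟨x, hx, rfl⟩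
    refine ⟨Θ.mapsTo hx.1, ?_⟩
    show g.toFun (Θ.invFun (Θ.toFun x)) _ = _
    rw [Θ.left_inv hx.1, hx.2]
  have hlU : ∀ i, ∀ Z ⊆ dom X fro, lvl g' t i ∩ Z = lvl g t i ∩ Z := fun i Z hZ =>
    Subset.antisymm (fun x hx => ⟨⟨hx.1.1, hg x (hZ hx.2) ▸ hx.1.2⟩, hx.2⟩)
      fun x hx => ⟨⟨hx.1.1, (hg x (hZ hx.2)).symm ▸ hx.1.2⟩, hx.2⟩
  have hl2 : ∀ i j, lvl g' t i ∩ lvl g' t j = Θ.toFun '' (lvl g t i ∩ lvl g t j) := fun i j => by
    rw [hl, hl, Θ.injOn.image_inter (hlΩ i) (hlΩ j)]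
  have hlu : ⋃ i, lvl g' t i = Θ.toFun '' ⋃ i, lvl g t i := by
    simp only [hl, image_iUnion]
  have huΩ : ⋃ i, lvl g t i ⊆ X.Ω := iUnion_subset hlΩ
  have hs : ∀ k, ∀ A ⊆ X.Ω, Θ.toFun '' A ∩ X.K.skel k = Θ.toFun '' (A ∩ X.K.skel k) :=
    fun k A hA => img_inter Θ hA ((X.K.skel_subset_carrier k).trans hKΩ)
      (img_sub Θ b2 (X.K.sub_skel k))
  have hlip : ∀ i, ∀ c ∈ fro, ∀ L : ℝ≥0, LipschitzOnWith L (fun x => g.toFun x (X.co i))
      {x ∈ X.K.cell c | |g.toFun x (X.co i) - t i| ≤ 4 * lam} →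
      LipschitzOnWith L (fun x => g'.toFun x (X.co i))
        {x ∈ X.K.cell c | |g'.toFun x (X.co i) - t i| ≤ 4 * lam} := fun i c hU L h => by
    refine LipschitzOnWith.of_dist_le_mul fun x hx y hy => ?_
    have a1 := hx.2
    have a2 := hy.2
    rw [hg x (hcd c hU hx.1)] at a1 ⊢
    rw [hg y (hcd c hU hy.1)] at a2 ⊢
    exact h.dist_le_mul x ⟨hx.1, a1⟩ y ⟨hy.1, a2⟩
  show _ ∧ RawG X c₀ g' t lam fro w ∧ ∀ e, (⋃ i, lvl g' t i) ∩ _ = _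
  refine ⟨hl, ⟨R.lt, R.pos, ?_, R.inside, R.sep, R.face, R.froU, R.on,
    fun i x hx => ?_, R.keepU, R.keepbd, R.keep, R.comm, R.disj, fun i => ?_, fun i j hij => ?_,
    fun i φ hφ hU => ?_, fun i c hU hd => hlip i c hU _ (R.lip i c hU hd),
    fun i c hU hd => (R.lip₃ i c hU hd).imp fun _ h => ⟨hlip i c hU _ h.1, h.2⟩,
    fun i c hc h3 => ?_, fun c hc hU => ?_, fun i => ?_, fun i j hf => ?_⟩, fun e => ?_⟩
  · refine Subset.antisymm (fun x hx => ⟨X.ball.1 hx, ?_⟩) fun x hx => ?_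
    · rw [hg x (hUd (X.bd_sub hx))]
      exact (R.bd_eq ▸ hx : x ∈ {x ∈ X.Ω | g.toFun x ∈ frontier (Icc lo hi)}).2
    · have a1 : Θ.invFun x ∈ X.bd := R.bd_eq ▸ ⟨Θ.mapsTo_inv hx.1, hx.2⟩
      have a2 := b1 (hUd (X.bd_sub a1))
      rw [Θ.right_inv hx.1] at a2
      exact a2 ▸ a1
  · rw [hg x hx]
    exact R.nat i x hx
  · rw [hlU i _ hUd]
    exact R.att i
  · rw [inter_inter_distrib_right, hlU i _ hUd, hlU j _ hUd, ← inter_inter_distrib_right]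
    exact R.att₂ i j hij
  · rw [hlU i _ (hU.trans hUd)]
    exact R.arc i φ hφ hU
  · rw [hlU i _ (hcd c hc)]
    exact R.discs i c hc h3
  · rw [hlu, hs 1 _ huΩ, img_inter Θ (inter_subset_left.trans huΩ) (hcΩ c) (b2 c),
      (Θ.injOn.mono (inter_subset_right.trans (hcΩ c))).ncard_image]
    exact R.L_ge c hc hU
  · rw [hl]
    refine gen1_img Θ hKΩ b2 (hlΩ i) (fun x hx => ?_) (R.gen i)
    obtain ⟨r, hr, H⟩ := g.conical x hx.1
    refine ⟨r, hr, fun v hv hxv s hs => ⟨(H v hv hxv.1 s hs).1, ?_⟩⟩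
    rw [(H v hv hxv.1 s hs).2, Pi.add_apply, Pi.smul_apply, Pi.sub_apply, hxv.2, hx.2, sub_self,
      smul_zero, add_zero]
  · rw [hl2, disjoint_iff_inter_eq_empty, hs 1 _ (inter_subset_left.trans (hlΩ i)),
      hs 2 _ (inter_subset_left.trans (hlΩ i)), (R.gen₂ i j hf).1.inter_eq, image_empty]
    exact ⟨rfl, (R.gen₂ i j hf).2.image _⟩
  · rw [hlu, img_inter Θ huΩ (hcΩ e) (b2 e)]

theorem init1G : INIT1G := by
  intro X c₀ lo hi g t lam fro w R hS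
  classical
  have := X.finι
  have key : ∀ e, ∃ (θ : E3 → E3) (z : E3 → Band E3), X.K.dim e = 1 →
      ((∃ Φ : ConHomeo (X.K.cell e) (X.K.cell e), EqOn Φ.toFun θ (X.K.cell e)) ∧
        EqOn θ id (X.K.bd e) ∧ (e ∈ fro → EqOn θ id (X.K.cell e))) ∧
      (e ∉ fro →
        (∀ p ∈ θ '' ((⋃ i, lvl g t i) ∩ X.K.cell e), (z p).Ok ∧ (z p).In (X.K.cell e) ∧
          (z p).B ⊆ X.K.ocell e ∧ (z p).W = {p} ∧ LipschitzOnWith (X.L e) (z p).u (z p).B) ∧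
        ∀ p ∈ θ '' ((⋃ i, lvl g t i) ∩ X.K.cell e), ∀ q ∈ θ '' ((⋃ i, lvl g t i) ∩ X.K.cell e),
          p ≠ q → Disjoint (z p).B (z q).B) := by
    intro e
    by_cases he : X.K.dim e = 1
    swap
    · exact ⟨id, fun _ => ⟨∅, 0, 0⟩, fun h' => absurd h' he⟩
    by_cases hU : e ∈ fro
    · exact ⟨id, fun _ => ⟨∅, 0, 0⟩, fun _ => ⟨⟨⟨.refl (X.K.ball e).conicalSet, fun _ _ => rfl⟩,
        fun _ _ => rfl, fun _ _ _ => rfl⟩, fun h' => absurd hU h'⟩⟩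
    obtain ⟨x, y, e1, e2, e3⟩ := hS e he hU
    have hxy : x ≠ y := by
      rintro rfl
      obtain ⟨z, hz⟩ := X.K.ocell_nonempty e
      rw [RCx.ocell, e1, e2, segment_same] at hz
      exact hz.2 (Or.inl hz.1)
    have hfin : ((⋃ i, lvl g t i) ∩ X.K.cell e).Finite := by
      rw [iUnion_inter]
      exact finite_iUnion fun i => (R.gen i).fin.subset
        (inter_subset_inter_right _ (X.K.cell_subset_skel he.le))
    obtain ⟨θ, a1, -, z, a2, a3⟩ := wire hxy hfin (fun p hp => ⟨e1 ▸ hp.2, fun hb =>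
      let ⟨i, hi⟩ := mem_iUnion.1 hp.1
      disjoint_left.1 (R.gen i).vert hi (X.K.bd_subset_skel he.le (e2 ▸ hb))⟩) e3
    refine ⟨θ.toFun, z, fun _ => ⟨⟨⟨θ.cast e1.symm e1.symm, fun _ _ => rfl⟩, e2 ▸ a1,
      fun h' => absurd h' hU⟩, fun _ => ⟨fun p hp => ?_, a3⟩⟩⟩
    rw [RCx.ocell, e2]
    simpa only [← e1] using a2 p hp
  choose θ ζ hθ using key
  obtain ⟨Θ, b1, b2, b3⟩ := evenF X R.face R.froU θ fun e he => (hθ e he).1
  obtain ⟨hl, hR, hc⟩ := R.move Θ b1 b2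
  refine ⟨_, Θ, rfl, b1, b2, hl, hR, ζ, fun e he hU => ?_⟩
  rw [hc, ((b3 e he).mono inter_subset_right).image_eq]
  exact (hθ e he).2 hU

theorem init1sG : INIT1SG := by
  intro X c₀ lo hi g t lam fro w Λ ζ h0 h1 R hS
  classical
  have := X.finι
  have key : ∀ e, ∃ (θ : E3 → E3) (z : E3 → Band E3), X.K.dim e = 1 →
      ((∃ Φ : ConHomeo (X.K.cell e) (X.K.cell e), EqOn Φ.toFun θ (X.K.cell e)) ∧
        EqOn θ id (X.K.bd e) ∧ (e ∈ fro → EqOn θ id (X.K.cell e))) ∧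
      (e ∉ fro →
        (∀ p ∈ θ '' ((⋃ i, lvl g t i) ∩ X.K.cell e), (z p).Ok ∧ (z p).In (X.K.cell e) ∧
          (z p).B ⊆ X.K.ocell e ∧ (z p).W = {p} ∧ LipschitzOnWith (X.L e) (z p).u (z p).B ∧
          LipschitzOnWith (Λ e) (z p).half.half.u (z p).half.half.B) ∧
        ∀ p ∈ θ '' ((⋃ i, lvl g t i) ∩ X.K.cell e), ∀ q ∈ θ '' ((⋃ i, lvl g t i) ∩ X.K.cell e),
          p ≠ q → Disjoint (z p).B (z q).B) := by
    intro e
    by_cases he : X.K.dim e = 1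
    swap
    · exact ⟨id, fun _ => ⟨∅, 0, 0⟩, fun h' => absurd h' he⟩
    by_cases hU : e ∈ fro
    · exact ⟨id, fun _ => ⟨∅, 0, 0⟩, fun _ => ⟨⟨⟨.refl (X.K.ball e).conicalSet, fun _ _ => rfl⟩,
        fun _ _ => rfl, fun _ _ _ => rfl⟩, fun h' => absurd hU h'⟩⟩
    obtain ⟨x, y, e1, e2, e3, e4⟩ := hS e he hU
    have hxy : x ≠ y := by
      rintro rfl
      obtain ⟨z, hz⟩ := X.K.ocell_nonempty e
      rw [RCx.ocell, e1, e2, segment_same] at hz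
      exact hz.2 (Or.inl hz.1)
    have hfin : ((⋃ i, lvl g t i) ∩ X.K.cell e).Finite := by
      rw [iUnion_inter]
      exact finite_iUnion fun i => (R.gen i).fin.subset
        (inter_subset_inter_right _ (X.K.cell_subset_skel he.le))
    obtain ⟨θ, a1, a0, -⟩ := wire (L := X.L e) hxy hfin (fun p hp => ⟨e1 ▸ hp.2, fun hb =>
      let ⟨i, hi⟩ := mem_iUnion.1 hp.1
      disjoint_left.1 (R.gen i).vert hi (X.K.bd_subset_skel he.le (e2 ▸ hb))⟩) (by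
        have := mul_le_mul_of_nonneg_right h1 (mul_nonneg (X.L e).coe_nonneg (dist_nonneg (x := x)
          (y := y)))
        have h2 : (0:ℝ) ≤ (((⋃ i, lvl g t i) ∩ X.K.cell e).ncard : ℕ) := Nat.cast_nonneg _
        linarith)
    obtain ⟨z, a2, a3⟩ := zones hxy h0 h1 e3 e4
    rw [← a0] at a2 a3
    refine ⟨θ.toFun, z, fun _ => ⟨⟨⟨θ.cast e1.symm e1.symm, fun _ _ => rfl⟩, e2 ▸ a1,
      fun h' => absurd h' hU⟩, fun _ => ⟨fun p hp => ?_, a3⟩⟩⟩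
    rw [RCx.ocell, e2]
    simpa only [← e1] using a2 p hp
  choose θ z hθ using key
  obtain ⟨Θ, b1, b2, b3⟩ := evenF X R.face R.froU θ fun e he => (hθ e he).1
  obtain ⟨hl, hR, hc⟩ := R.move Θ b1 b2
  refine ⟨_, Θ, rfl, b1, b2, hl, hR, z, fun e he hU => ?_, fun e he hU => ?_⟩
  · rw [hc, ((b3 e he).mono inter_subset_right).image_eq]
    exact ⟨fun p hp => let ⟨c1, c2, c3, c4, c5, _⟩ := ((hθ e he).2 hU).1 p hp
      ⟨c1, c2, c3, c4, c5⟩, ((hθ e he).2 hU).2⟩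
  · rw [hc, ((b3 e he).mono inter_subset_right).image_eq]
    exact fun p hp => (((hθ e he).2 hU).1 p hp).2.2.2.2.2

end P073.Wg
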