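import Vale.Agent.P073Y.Wg.Defs
import Vale.Agent.P073Y.Wf.Top

/-!
# The iteration with softly frozen cells, and the assembly
-/

open Set Metric Topology Filter
open scoped NNReal

namespace P073.Wg

open P073.Bd (Band I cl Match Sgn Comm Ext PwLip Chart Lev corner Gen1 bas)
open P073.Wb P073.Wb.Sat
open P073.Wf (mat_via ENGINEJ PATF FINF Pat)
open P073.Fi (SUMF Wide Sqr ShpW ShpE)

theorem natqG : NATQG := by
  intro X c₁ c₀ Fr S D hS hI T β γ b F C W m hN hC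
  refine ⟨fun i c hc x hx => ?_, fun i j hij c hc hU => disjoint_left.2 fun x hx hxc => ?_⟩
  · have hd := X.dim_le c
    rcases (by omega : X.K.dim c ≤ 1 ∨ X.K.dim c = 2 ∨ X.K.dim c = 3) with h | h | h
    · obtain ⟨a, y, rfl, hy, h1⟩ := sat_wire hS F C W hx.1 (X.K.cell_subset_skel h hx.2)
      obtain ⟨e, -, -, -, h2, h3, -⟩ := Fr.wire y (hy.mem_P hS)
      have h4 : y ∈ (Fr.z y).W := h3.ge rfl
      have h5 : y ∈ X.K.cell c := X.K.cell_subset_of_mem (h2 h1.1.1) hx.2 (h2 h4.1).1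
      obtain ⟨j, hj⟩ := mem_iUnion.1 (hI _ c hc (by omega) ⟨hy.mem.1.1, h5⟩)
      have h6 : Part (Fr.z y).half (S.ν j) := S.mt j c hc y ⟨⟨hy.mem_P hS, hj⟩, h5⟩
      exact ⟨j, mat_via h6.half (hy.part_zone F C W) h1⟩
    · obtain ⟨a, rfl, rfl, h1⟩ := sat_face hS F C W hx.1 h hx.2
      obtain ⟨j, -, -, h2, h3⟩ := hN.1 a hc
      have h4 : Part (β a) (S.ν j) := ⟨fun y hy => ((h2 y).1 hy).1.1, h3⟩
      exact ⟨j, mat_via h4.half (part_arc C W a) h1⟩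
    · obtain ⟨k, rfl, rfl, h1⟩ := sat_cell hS F C W hx.1 h hx.2
      obtain ⟨j, h2⟩ := hC.1 k hc
      exact ⟨j, mat_via h2 (part_cup W k) h1⟩
  · have hd := X.dim_le c
    rcases (by omega : X.K.dim c ≤ 1 ∨ X.K.dim c = 2 ∨ X.K.dim c = 3) with h | h | h
    · exact Sw2.zone_wire m hij hx (X.K.cell_subset_skel h hxc)
    · obtain ⟨a, rfl, e1, h1⟩ := sat_face hS F C W hx.1 h hxc
      obtain ⟨a', e2, e3, h2⟩ := sat_face hS F C W hx.2 h hxc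
      exact (hN.2 a a' (fun e => hij (by rw [← e1, ← e3, e])) e2.symm hc hU).notMem_of_mem_left
        h1.1 h2.1
    · obtain ⟨k, rfl, e1, h1⟩ := sat_cell hS F C W hx.1 h hxc
      obtain ⟨l, e2, e3, h2⟩ := sat_cell hS F C W hx.2 h hxc
      exact (hC.2 k l (fun e => hij (by rw [← e1, ← e3, e])) e2.symm hc).notMem_of_mem_left h1 h2

/-- the walls of a natural model are parts of the natural walls -/
theorem SoftG.Nat.wall {X : Base} {c₁ c₀ : ℝ≥0} {Fr : Frame X c₁} {S : SoftG Fr c₀}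
    {b : X.ι → Band E3} (h : S.Nat b) {i : X.ι} {c : X.K.ι} (hc : c ∈ S.fro) :
    (b i).W ∩ X.K.cell c ⊆ ⋃ j, (S.ν j).W := fun x hx => by
  obtain ⟨j, h1, ε, hε, h2, -⟩ := h.mat i c hc x ⟨hx.1.1, hx.2⟩
  refine mem_iUnion.2 ⟨j, (bas E3).half_W (S.ν j) ▸ ⟨h1, ?_⟩⟩
  rw [hx.1.2] at h2
  rcases hε with rfl | rfl <;> linarith

theorem swapG : SWAPG := by
  intro X c₁ c₀ Fr S b D m hN s i c hc _ x hx
  obtain ⟨O, -, hxO, ⟨k, hk⟩ | ⟨j, k, ε, ε', hjk, -, -, hU, hu, -⟩⟩ := s.loc i x hx.1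
  · have h1 : x ∈ (b k).W ∩ O := hk ▸ ⟨hx.1, hxO⟩
    exact hN.wall hc ⟨h1.1, hx.2⟩
  · have h1 := s.sub i hx.1
    have h2 := hu x ⟨hxO, h1⟩
    exact absurd hx.2 ((hN.disj j k hjk c hc fun h => hU.notMem_of_mem_left hxO (h hx.2)
      ).notMem_of_mem_left ⟨Sw2.mem_B (m.on j) h1 h2.1, Sw2.mem_B (m.on k) h1 h2.2⟩)

theorem engineG_of {c : ℝ≥0} (hT : TRACE) (hFa : FACESG c) (hC : CELLSG c) (hW : WALLS)
    (hM : MODEL) (hN : NORMLE) (hE : ENGINEJ) : ENGINEG c := by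
  intro X c₁ Fr S D hS hI
  obtain ⟨D', b, -, -, -, hb, h0, -, hle, hQ, hatt⟩ := hE (Fr := Fr) S.Inv (fun _ b => S.Nat b)
    (fun D hD hI => by
      obtain ⟨T⟩ := hT hD
      obtain ⟨β, hβ, n1⟩ := hFa S hD hI T
      obtain ⟨γ, hγ, n2⟩ := hC S hD T β hβ n1
      obtain ⟨b, hb⟩ := hW hD T β γ hβ hγ
      obtain ⟨h1, h2⟩ := hN hD T β γ b hβ hγ hb
      have hm := hM hD T β γ b hβ hγ hb
      exact ⟨b, hm, h1, natqG S hD hI T β γ b hβ hγ hb hm n1 n2, h2⟩)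
    (fun _ _ _ hQ hb hs => swapG S hb hQ hs) D hS hI
  exact ⟨b, hb, hQ, h0, hle, hatt⟩

theorem w2g_of {c : ℝ≥0} (hT : TRACE) (hFa : FACESG c) (hC : CELLSG c) (hW : WALLS)
    (hM : MODEL) (hN : NORMLE) (hE : ENGINEJ) (hP : PATF) (hI : INITG) (hF : FINF) : W2G c := by
  intro X lo hi g t lam fro w ζ hR hZ
  obtain ⟨Fr, S, hFl, hS, hInv, e1, e2, e3, -, -⟩ := hI g t hR hZ
  obtain ⟨D', b, -, -, -, hb, h0, -, hle, hQ, hatt⟩ := hE (Fr := Fr) S.Inv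
    (fun _ b => S.Nat b ∧ Pat X fun i => (b i).W)
    (fun D hD hI => by
      obtain ⟨T⟩ := hT hD
      obtain ⟨β, hβ, n1⟩ := hFa S hD hI T
      obtain ⟨γ, hγ, n2⟩ := hC S hD T β hβ n1
      obtain ⟨b, hb⟩ := hW hD T β γ hβ hγ
      obtain ⟨h1, h2⟩ := hN hD T β γ b hβ hγ hb
      have hm := hM hD T β γ b hβ hγ hb
      exact ⟨b, hm, h1, ⟨natqG S hD hI T β γ b hβ hγ hb hm n1 n2, hP hD T β γ b hβ hγ hb⟩, h2⟩)
    (fun _ _ _ hQ hb hs => swapG S hb hQ.1 hs) _ hS hInv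
  obtain ⟨G, hG⟩ := hF g t hFl hS hb h0 hle hatt
  refine ⟨G, b, hG, ?_, fun i => e3 i ▸ hb.ext i, fun i c hc x hx => ?_,
    fun i j hij c hc => hQ.1.disj i j hij c (e1 ▸ hc)⟩
  · rw [← funext hG.wall]
    exact hQ.2
  · obtain ⟨j, h⟩ := hQ.1.mat i c (e1 ▸ hc) x hx
    exact ⟨j, e2 j ▸ h⟩

theorem w2sG_of {c₀ c : ℝ≥0} (hT : TRACE) (hFa : FACESSG c₀ c) (hSu : SUMF) (hC : CELLSG c₀)
    (hW : WALLS) (hM : MODEL) (hN : NORMLE) (hE : ENGINEJ) (hP : PATF) (hI : INITG) (hF : FINF) :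
    W2SG c₀ c := by
  intro X lo hi g t lam fro w z Λ ζ 𝓢 χ hR hZ hζ hζ' hWi hSq
  obtain ⟨Fr, S, hFl, hS, hInv, e1, e2, e3, e4, e5⟩ := hI g t hR hZ
  have hW1 : ∀ e, X.K.dim e = 1 → e ∉ fro → ∀ p ∈ Fr.P ∩ X.K.cell e,
      LipschitzOnWith (Λ e) (Fr.z p).half.half.u (Fr.z p).half.half.B := by
    intro e he hf p hp
    rw [e5 e he hf p hp]
    refine hWi e he hf p ⟨?_, hp.2⟩
    have h1 := hp.1
    rw [e4] at h1
    exact h1.1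
  have hW2 : Wide X S.fro Fr.P (fun _ => Fr.z) Λ := fun e he hf => hW1 e he (e1 ▸ hf)
  have hSq' : ∀ φ (h : φ ∈ 𝓢), Sqr X S.fro Fr.P Λ c ζ φ (χ φ h) := by
    rw [e1, e4]
    exact hSq
  obtain ⟨D', b, -, -, -, hb, h0, -, hle, hQ, hatt⟩ := hE (Fr := Fr) S.Inv
    (fun _ b => (S.Nat b ∧ Pat X fun i => (b i).W) ∧
      (∀ e, X.K.dim e = 1 → e ∉ fro → ShpE X b e (Λ e)) ∧
      ∀ φ (h : φ ∈ 𝓢), ShpW X b φ (χ φ h) (Λ φ) ζ c)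
    (fun D hD hI => by
      obtain ⟨T⟩ := hT hD
      obtain ⟨β, hβ, n1, n3⟩ := hFa S 𝓢 χ hζ hζ' hW2 hSq' hD hI T
      obtain ⟨γ, hγ, n2⟩ := hC S hD T β hβ n1
      obtain ⟨b, hb⟩ := hW hD T β γ hβ hγ
      obtain ⟨h1, h2⟩ := hN hD T β γ b hβ hγ hb
      have hm := hM hD T β γ b hβ hγ hb
      obtain ⟨s1, s2⟩ := hSu T β γ b hD hβ hγ hb
      exact ⟨b, hm, h1, ⟨⟨natqG S hD hI T β γ b hβ hγ hb hm n1 n2, hP hD T β γ b hβ hγ hb⟩,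
        fun e he hf => s2 e (Λ e) he (hW1 e he hf),
        fun φ h => s1 φ (χ φ h) (Λ φ) ζ c (hSq φ h).dim (n3 φ h)⟩, h2⟩)
    (fun _ _ _ hQ hb hs => swapG S hb hQ.1.1 hs) _ hS hInv
  obtain ⟨G, hG⟩ := hF g t hFl hS hb h0 hle hatt
  refine ⟨G, b, hG, ?_, fun i => e3 i ▸ hb.ext i, fun i c hc x hx => ?_,
    fun i j hij c hc => hQ.1.1.disj i j hij c (e1 ▸ hc), hQ.2.1, hQ.2.2⟩
  · rw [← funext hG.wall]
    exact hQ.1.2
  · obtain ⟨j, h⟩ := hQ.1.1.mat i c (e1 ▸ hc) x hx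
    exact ⟨j, e2 j ▸ h⟩

end P073.Wg
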