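import Vale.Agent.P073Y.Wb.All
import Vale.Agent.P073Y.Wf.Fin
import Vale.Agent.P073Y.Nt.Flatb
import Vale.Agent.P073Y.Wg.Cells
import Vale.Agent.P073Y.Wg.Top
import Vale.Agent.P073Y.Wg.Init
import Vale.Agent.P073Y.Wg.Init1
import Vale.Agent.P073Y.Fi.Bdy
import Vale.Agent.P073Y.Fi.Count
import Vale.Agent.P073Y.Fi.Cupq
import Vale.Agent.P073Y.Fi.En
import Vale.Agent.P073Y.Fi.F2q
import Vale.Agent.P073Y.Fi.Facems
import Vale.Agent.P073Y.Fi.Match
import Vale.Agent.P073Y.Fi.Oned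
import Vale.Agent.P073Y.Fi.Opp
import Vale.Agent.P073Y.Fi.Shear
import Vale.Agent.P073Y.Fi.Shz
import Vale.Agent.P073Y.Fi.Sides
import Vale.Agent.P073Y.Fi.Sumf
import Vale.Agent.P073Y.Fi.Thru

/-!
# The engine with soft cells which need not be convex: the statements without hypotheses
-/

open scoped NNReal

namespace P073.Wg

theorem patG : Wf.PATF := fun S _ _ _ _ F C W => Wf.pat_of S F C W

theorem finG : Wf.FINF := Wf.finF_of Nt.flatb

theorem engineG : Wf.ENGINEJ := Wf.engineJ_of Wb.swap1 Wb.swap2 Wb.swap3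

theorem w2g : ∃ c₀ : ℝ≥0, ∀ c, c₀ ≤ c → W2G c := by
  obtain ⟨c₀, h⟩ := Bd.models
  exact ⟨c₀, fun c hc => w2g_of Wb.trace (facesG_of (h c hc).1) (cellsG_of (h c hc).2 Bd.arciso)
    Wb.walls Wb.model_thm Wb.normle engineG patG initG finG⟩

theorem facemsG : Fi.FACEMS 120000 :=
  Fi.facems_of (Fi.f2q_of Fi.shear Fi.bdy Fi.opp Fi.sides (Fi.match_of Fi.oned)
    (Fi.thru_of Fi.shz Fi.shear) (Fi.cupq_of Fi.shz) Fi.lipc Fi.count Fi.en2)

theorem w2sG : ∃ c₀ : ℝ≥0, ∀ c, c₀ ≤ c → W2SG c 120000 := by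
  obtain ⟨c₀, h⟩ := Bd.models
  exact ⟨c₀, fun c hc => w2sG_of Wb.trace (facessG_of (h c hc).1 facemsG) Fi.sumf
    (cellsG_of (h c hc).2 Bd.arciso) Wb.walls Wb.model_thm Wb.normle engineG patG initG finG⟩

end P073.Wg
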