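import Vale.Agent.P073Y.Fi.Sk2

/-!
# Softly frozen cells which need not be convex: definitions and statements

The same as in `Wf` and `Fi`, but the soft cells of dimension three need not be convex. The
Lipschitz constants on them have to be small compared with the constants of the charts.
-/

open Set Metric Topology Filter
open scoped NNReal

namespace P073.Wg

open P073.Bd (Band I cl Match Sgn Comm Ext PwLip Chart Lev corner Gen1)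
open P073.Wb P073.Wf
open P073.Fi (Q Wide SegS Sqr ShpF ShpW ShpE)

variable {X : Base} {c₁ c₀ : ℝ≥0}

/-- the softly frozen cells with their natural bands -/
structure SoftG (Fr : Frame X c₁) (c₀ : ℝ≥0) where
  /-- the softly frozen cells -/
  fro : Set X.K.ι
  /-- the domain of the natural bands -/
  Y : Set E3
  /-- the natural bands -/
  ν : X.ι → Band E3
  face : ∀ c ∈ fro, ∀ j, X.K.cell j ⊆ X.K.cell c → j ∈ fro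
  sub : ∀ c ∈ fro, X.K.cell c ⊆ Y
  on : ∀ i, (ν i).On Y
  keep : ∀ i, ∀ c ∈ fro, (ν i).Keeps (X.K.cell c)
  ext : ∀ i, Ext (ν i) (Fr.nb i) X.U
  disj : ∀ i j, i ≠ j → ∀ c ∈ fro, ¬ X.K.cell c ⊆ X.U →
    Disjoint ((ν i).B ∩ (ν j).B) (X.K.cell c)
  wire : ∀ i, ∀ e ∈ fro, X.K.dim e ≤ 1 → ∀ x ∈ (ν i).B ∩ X.K.cell e,
    ∃ p ∈ Fr.P ∩ (ν i).W, x ∈ (Fr.z p).half.B
  mt : ∀ i, ∀ e ∈ fro, ∀ p ∈ Fr.P ∩ (ν i).W ∩ X.K.cell e,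
    (Fr.z p).half.B ⊆ (ν i).B ∧ Match (Fr.z p).half (ν i)
  discs : ∀ i, ∀ c ∈ fro, X.K.dim c = 3 → ∃ 𝒟 : Finset (Set E3),
    (ν i).W ∩ X.K.cell c = ⋃ d ∈ 𝒟, d ∧ (∀ d ∈ 𝒟, ∀ d' ∈ 𝒟, d ≠ d' → Disjoint d d') ∧
    ∀ d ∈ 𝒟, ConBall 2 d (d ∩ X.K.bd c)
  lip₂ : ∀ i, ∀ φ ∈ fro, X.K.dim φ = 2 →
    LipschitzOnWith (X.L φ) (ν i).u ((ν i).B ∩ X.K.cell φ)
  lip₃ : ∀ i, ∀ c ∈ fro, X.K.dim c = 3 → ∃ L' : ℝ≥0,
    LipschitzOnWith L' (fun x => 2 * (ν i).u x) ((ν i).B ∩ X.K.cell c) ∧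
    X.M₁ c * X.M₂ c * L' ≤ X.L c
  L_ge : ∀ c, 2 ≤ X.K.dim c → c ∉ fro → ¬ X.K.cell c ⊆ X.U →
    c₀ * X.M₁ c * (X.M₂ c * X.L₀ c + ((Fr.P ∩ X.K.cell c).ncard : ℕ)) ≤ X.L c

variable {Fr : Frame X c₁}

/-- on the soft wires and faces the walls are parts of the natural walls -/
def SoftG.Inv (S : SoftG Fr c₀) (D : X.ι → Set E3) : Prop :=
  ∀ i, ∀ c ∈ S.fro, X.K.dim c ≤ 2 → D i ∩ X.K.cell c ⊆ ⋃ j, (S.ν j).W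

/-- on the soft cells the bands are parts of the inner halves of the natural bands -/
structure SoftG.Nat (S : SoftG Fr c₀) (b : X.ι → Band E3) : Prop where
  mat : ∀ i, ∀ c ∈ S.fro, ∀ x ∈ (b i).B ∩ X.K.cell c,
    ∃ j, x ∈ (S.ν j).half.B ∧ MAt (S.ν j).half (b i) x
  disj : ∀ i j, i ≠ j → ∀ c ∈ S.fro, ¬ X.K.cell c ⊆ X.U →
    Disjoint ((b i).B ∩ (b j).B) (X.K.cell c)

variable {D : X.ι → Set E3}

/-- the bands of the arcs in soft faces -/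
def SoftG.NatF (S : SoftG Fr c₀) (T : Trace Fr D) (β : T.α → Band E3) : Prop :=
  (∀ a, T.face a ∈ S.fro → ∃ j, T.A a ⊆ (S.ν j).W ∧ (β a).W = T.A a ∧
    (∀ x, x ∈ (β a).B ↔ x ∈ (S.ν j).B ∩ X.K.cell (T.face a) ∧ (S.ν j).M (x, 0) ∈ T.A a) ∧
    Match (β a) (S.ν j)) ∧
  ∀ a a', a ≠ a' → T.face a = T.face a' → T.face a ∈ S.fro → ¬ X.K.cell (T.face a) ⊆ X.U →
    Disjoint (β a).B (β a').B

/-- the bands of the discs in soft cells -/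
def SoftG.NatC (S : SoftG Fr c₀) (T : Trace Fr D) (γ : T.κ → Band E3) : Prop :=
  (∀ k, T.cel k ∈ S.fro → ∃ j, (γ k).B ⊆ (S.ν j).half.B ∧ Match (γ k) (S.ν j).half) ∧
  ∀ k l, k ≠ l → T.cel k = T.cel l → T.cel k ∈ S.fro → Disjoint (γ k).B (γ l).B

def FACESG (c₀ : ℝ≥0) : Prop := ∀ {X : Base} {c₁ : ℝ≥0} {Fr : Frame X c₁} (S : SoftG Fr c₀)
  {D : X.ι → Set E3}, State Fr D → S.Inv D → ∀ T : Trace Fr D, ∃ β, Faces T β ∧ S.NatF T β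

def CELLSG (c₀ : ℝ≥0) : Prop := ∀ {X : Base} {c₁ : ℝ≥0} {Fr : Frame X c₁} (S : SoftG Fr c₀)
  {D : X.ι → Set E3}, State Fr D → ∀ (T : Trace Fr D) (β : T.α → Band E3), Faces T β →
  S.NatF T β → ∃ γ, Cells T β γ ∧ S.NatC T γ

def NATQG : Prop := ∀ {X : Base} {c₁ c₀ : ℝ≥0} {Fr : Frame X c₁} (S : SoftG Fr c₀)
  {D : X.ι → Set E3}, State Fr D → S.Inv D → ∀ (T : Trace Fr D) (β : T.α → Band E3)
  (γ : T.κ → Band E3) (b : X.ι → Band E3), Faces T β → Cells T β γ → Walls T γ b → Model Fr b →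
  S.NatF T β → S.NatC T γ → S.Nat b

/-- the exchange keeps the invariant -/
def SWAPG : Prop := ∀ {X : Base} {c₁ c₀ : ℝ≥0} {Fr : Frame X c₁} (S : SoftG Fr c₀)
  {b : X.ι → Band E3} {D : X.ι → Set E3}, Model Fr b → S.Nat b → Swapped Fr b D → S.Inv D

/-- the engine with softly frozen cells -/
def ENGINEG (c₀ : ℝ≥0) : Prop := ∀ {X : Base} {c₁ : ℝ≥0} {Fr : Frame X c₁} (S : SoftG Fr c₀)
  (D : X.ι → Set E3), State Fr D → S.Inv D → ∃ b, Model Fr b ∧ S.Nat b ∧ extra b = ∅ ∧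
    Le X (fun i => (b i).W) D ∧ ∀ i, ∀ p ∈ (b i).W ∩ X.K.skel 1, ∃ j, Att X D X.faces j p

/-- the input: `w i` is the band of half width `4 lam` on the frozen part and the soft cells;
its level function is the natural one, its moves are arbitrary -/
structure RawG (X : Base) (c₀ : ℝ≥0) {lo hi : E3} (g : ConHomeo X.Ω (Icc lo hi))
    (t : X.ι → ℝ) (lam : ℝ≥0) (fro : Set X.K.ι) (w : X.ι → Band E3) : Prop where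
  lt : ∀ k, lo k < hi k
  pos : 0 < lam
  bd_eq : X.bd = {x ∈ X.Ω | g.toFun x ∈ frontier (Icc lo hi)}
  inside : ∀ i, lo (X.co i) + 4 * lam < t i ∧ t i + 4 * lam < hi (X.co i)
  sep : ∀ i j, i ≠ j → X.fam i = X.fam j → 8 * (lam : ℝ) < |t i - t j|
  face : ∀ c ∈ fro, ∀ j, X.K.cell j ⊆ X.K.cell c → j ∈ fro
  froU : ∀ c, X.K.cell c ⊆ X.U → c ∈ fro
  on : ∀ i, (w i).On (dom X fro)
  nat : ∀ i, ∀ x ∈ dom X fro, (x ∈ (w i).B ↔ |g.toFun x (X.co i) - t i| ≤ 4 * lam) ∧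
    (w i).u x = cl ((g.toFun x (X.co i) - t i) / (4 * lam))
  keepU : ∀ i, (w i).Keeps X.U
  keepbd : ∀ i, (w i).Keeps X.bd
  keep : ∀ i, ∀ c ∈ fro, (w i).Keeps (X.K.cell c)
  comm : ∀ i j, i ≠ j → Comm (w i) (w j)
  disj : ∀ i j, i ≠ j → ∀ c ∈ fro, ¬ X.K.cell c ⊆ X.U →
    Disjoint ((w i).B ∩ (w j).B) (X.K.cell c)
  att : ∀ i, Joined (lvl g t i ∩ X.U) X.bd
  att₂ : ∀ i j, i ≠ j → Joined (lvl g t i ∩ lvl g t j ∩ X.U) X.bd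
  arc : ∀ i φ, X.K.dim φ = 2 → X.K.cell φ ⊆ X.U → Joined (lvl g t i ∩ X.K.cell φ) (X.K.bd φ)
  lip : ∀ i, ∀ c ∈ fro, X.K.dim c ≤ 2 →
    LipschitzOnWith (lam * X.L c) (fun x => g.toFun x (X.co i))
      {x ∈ X.K.cell c | |g.toFun x (X.co i) - t i| ≤ 4 * lam}
  lip₃ : ∀ i, ∀ c ∈ fro, X.K.dim c = 3 → ∃ L' : ℝ≥0,
    LipschitzOnWith (lam * L') (fun x => g.toFun x (X.co i))
      {x ∈ X.K.cell c | |g.toFun x (X.co i) - t i| ≤ 4 * lam} ∧ X.M₁ c * X.M₂ c * L' ≤ X.L c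
  discs : ∀ i, ∀ c ∈ fro, X.K.dim c = 3 → Discs (lvl g t i ∩ X.K.cell c) (X.K.bd c)
  L_ge : ∀ c, 2 ≤ X.K.dim c → c ∉ fro → c₀ * X.M₁ c * (X.M₂ c * X.L₀ c +
    (((⋃ i, lvl g t i) ∩ X.K.skel 1 ∩ X.K.cell c).ncard : ℕ)) ≤ X.L c
  gen : ∀ i, Gen1 X.K (lvl g t i)
  gen₂ : ∀ i j, X.fam i ≠ X.fam j → Disjoint (lvl g t i ∩ lvl g t j) (X.K.skel 1) ∧
    (lvl g t i ∩ lvl g t j ∩ X.K.skel 2).Finite

/-- spreading the points on the free wires -/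
def INIT1G : Prop := ∀ {X : Base} {c₀ : ℝ≥0} {lo hi : E3} (g : ConHomeo X.Ω (Icc lo hi))
  (t : X.ι → ℝ) {lam : ℝ≥0} {fro : Set X.K.ι} {w : X.ι → Band E3}, RawG X c₀ g t lam fro w →
  SegF X fro (⋃ i, lvl g t i) → ∃ (g' : ConHomeo X.Ω (Icc lo hi)) (Θ : ConHomeo X.Ω X.Ω),
    g' = Θ.symm.trans g ∧ EqOn Θ.toFun id (dom X fro) ∧
    (∀ c, Θ.toFun '' X.K.cell c = X.K.cell c) ∧ (∀ i, lvl g' t i = Θ.toFun '' lvl g t i) ∧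
    RawG X c₀ g' t lam fro w ∧ ∃ ζ, ZonesF X fro (⋃ i, lvl g' t i) ζ

/-- the first state -/
def INITG : Prop := ∀ {X : Base} {c₀ : ℝ≥0} {lo hi : E3} (g : ConHomeo X.Ω (Icc lo hi))
  (t : X.ι → ℝ) {lam : ℝ≥0} {fro : Set X.K.ι} {w : X.ι → Band E3} {ζ : X.K.ι → E3 → Band E3},
  RawG X c₀ g t lam fro w → ZonesF X fro (⋃ i, lvl g t i) ζ →
  ∃ (Fr : Frame X 0) (S : SoftG Fr c₀), FlatU Fr g t lam ∧ State Fr (lvl g t) ∧ S.Inv (lvl g t) ∧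
    S.fro = fro ∧ (∀ i, S.ν i = (w i).half) ∧ (∀ i, Fr.nb i = ((w i).cut X.U).half) ∧
    Fr.P = (⋃ i, lvl g t i) ∩ X.K.skel 1 ∧
    ∀ e, X.K.dim e = 1 → e ∉ fro → ∀ p ∈ Fr.P ∩ X.K.cell e, Fr.z p = ζ e p

/-- the two family engine with softly frozen cells -/
def W2G (c₀ : ℝ≥0) : Prop := ∀ (X : Base) {lo hi : E3} (g : ConHomeo X.Ω (Icc lo hi))
  (t : X.ι → ℝ) (lam : ℝ≥0) (fro : Set X.K.ι) (w : X.ι → Band E3) (ζ : X.K.ι → E3 → Band E3),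
  RawG X c₀ g t lam fro w → ZonesF X fro (⋃ i, lvl g t i) ζ →
  ∃ (G : ConHomeo X.Ω (Icc lo hi)) (b : X.ι → Band E3), Wf.Out X g G t lam b ∧ Pat X (lvl G t) ∧
    (∀ i, Ext (b i) ((w i).cut X.U).half.half X.U) ∧
    (∀ i, ∀ c ∈ fro, ∀ x ∈ (b i).B ∩ X.K.cell c,
      ∃ j, x ∈ (w j).half.half.B ∧ MAt (w j).half.half (b i) x) ∧
    ∀ i j, i ≠ j → ∀ c ∈ fro, ¬ X.K.cell c ⊆ X.U → Disjoint ((b i).B ∩ (b j).B) (X.K.cell c)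

/-- spreading the points on the free wires, with wide zones -/
def INIT1SG : Prop := ∀ {X : Base} {c₀ : ℝ≥0} {lo hi : E3} (g : ConHomeo X.Ω (Icc lo hi))
  (t : X.ι → ℝ) {lam : ℝ≥0} {fro : Set X.K.ι} {w : X.ι → Band E3} {Λ : X.K.ι → ℝ≥0} {ζ : ℝ},
  0 < ζ → ζ ≤ 1 → RawG X c₀ g t lam fro w → SegS X fro (⋃ i, lvl g t i) Λ ζ →
  ∃ (g' : ConHomeo X.Ω (Icc lo hi)) (Θ : ConHomeo X.Ω X.Ω),
    g' = Θ.symm.trans g ∧ EqOn Θ.toFun id (dom X fro) ∧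
    (∀ c, Θ.toFun '' X.K.cell c = X.K.cell c) ∧ (∀ i, lvl g' t i = Θ.toFun '' lvl g t i) ∧
    RawG X c₀ g' t lam fro w ∧
    ∃ z, ZonesF X fro (⋃ i, lvl g' t i) z ∧ Wide X fro (⋃ i, lvl g' t i) z Λ

/-- the bands of the arcs, sharp in the faces of `𝓢` -/
def FACESSG (c₀ c : ℝ≥0) : Prop := ∀ {X : Base} {c₁ : ℝ≥0} {Fr : Frame X c₁} (S : SoftG Fr c₀)
  {D : X.ι → Set E3} {Λ : X.K.ι → ℝ≥0} {ζ : ℝ} (𝓢 : Set X.K.ι)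
  (χ : ∀ φ ∈ 𝓢, ConHomeo (X.K.cell φ) Q), 0 < ζ → ζ ≤ 1 / 100 →
  Wide X S.fro Fr.P (fun _ => Fr.z) Λ → (∀ φ (h : φ ∈ 𝓢), Sqr X S.fro Fr.P Λ c ζ φ (χ φ h)) →
  State Fr D → S.Inv D → ∀ T : Trace Fr D, ∃ β, Faces T β ∧ S.NatF T β ∧
    ∀ φ (h : φ ∈ 𝓢), ShpF T β φ (χ φ h) (Λ φ) ζ c

/-- the two family engine with softly frozen cells, sharp wires and sharp faces -/
def W2SG (c₀ c : ℝ≥0) : Prop := ∀ (X : Base) {lo hi : E3} (g : ConHomeo X.Ω (Icc lo hi))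
  (t : X.ι → ℝ) (lam : ℝ≥0) (fro : Set X.K.ι) (w : X.ι → Band E3) (z : X.K.ι → E3 → Band E3)
  (Λ : X.K.ι → ℝ≥0) (ζ : ℝ) (𝓢 : Set X.K.ι) (χ : ∀ φ ∈ 𝓢, ConHomeo (X.K.cell φ) Q),
  RawG X c₀ g t lam fro w → ZonesF X fro (⋃ i, lvl g t i) z → 0 < ζ → ζ ≤ 1 / 100 →
  Wide X fro (⋃ i, lvl g t i) z Λ →
  (∀ φ (h : φ ∈ 𝓢), Sqr X fro ((⋃ i, lvl g t i) ∩ X.K.skel 1) Λ c ζ φ (χ φ h)) →
  ∃ (G : ConHomeo X.Ω (Icc lo hi)) (b : X.ι → Band E3), Wf.Out X g G t lam b ∧ Pat X (lvl G t) ∧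
    (∀ i, Ext (b i) ((w i).cut X.U).half.half X.U) ∧
    (∀ i, ∀ c ∈ fro, ∀ x ∈ (b i).B ∩ X.K.cell c,
      ∃ j, x ∈ (w j).half.half.B ∧ MAt (w j).half.half (b i) x) ∧
    (∀ i j, i ≠ j → ∀ c ∈ fro, ¬ X.K.cell c ⊆ X.U →
      Disjoint ((b i).B ∩ (b j).B) (X.K.cell c)) ∧
    (∀ e, X.K.dim e = 1 → e ∉ fro → ShpE X b e (Λ e)) ∧
    ∀ φ (h : φ ∈ 𝓢), ShpW X b φ (χ φ h) (Λ φ) ζ c

end P073.Wg
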