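import Vale.Agent.P073Y.Wg.Defs
import Vale.Agent.P073Y.Wf.Faces
import Vale.Agent.P073Y.Fi.Facess

/-!
# The bands of the new arcs, with softly frozen faces
-/

open Set Metric Topology Filter
open scoped NNReal

namespace P073.Wg

open P073.Bd (Band I Match Comm Lev FACEM bas)
open P073.Wb P073.Wb.FacesAux
open P073.Wf (exists_comp lev_arc free')
open P073.Fi (Shp stair co₂ FACEMS)
open P073.Fi.FacessAux (sharp)

variable {X : Base} {c₁ c₀ : ℝ≥0} {Fr : Frame X c₁} {D : X.ι → Set E3}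

variable (S : SoftG Fr c₀)

theorem keep_bd (j : X.ι) {c : X.K.ι} (hc : c ∈ S.fro) : (S.ν j).Keeps (X.K.bd c) :=
  fun x hx s hs hb => by
    obtain ⟨e, h1, h2, -⟩ := X.K.exists_face_bd hb
    exact h2 (S.keep j e (S.face c hc e (h2.trans (X.K.bd_subset c))) x hx s hs h1.1)

theorem closed_W (j : X.ι) (c : X.K.ι) : IsClosed ((S.ν j).W ∩ X.K.cell c) :=
  ((bas E3).W_cpt (S.on j).ok).1.isClosed.inter (X.K.isClosed_cell c)

/-- a connected part of the natural walls in a soft cell has one label -/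
theorem one_label {c : X.K.ι} (hc : c ∈ S.fro) (hU : ¬ X.K.cell c ⊆ X.U) {Z : Set E3}
    (hZ : IsPreconnected Z) (hne : Z.Nonempty) (h1 : Z ⊆ X.K.cell c) (h2 : Z ⊆ ⋃ j, (S.ν j).W) :
    ∃ j, Z ⊆ (S.ν j).W ∩ X.K.cell c := by
  have := X.finι
  refine exists_comp (fun j => closed_W S j c) (fun i j hij => ?_) hZ (fun x hx => ?_) hne
  · exact disjoint_left.2 fun x h h' => (S.disj i j hij c hc hU).notMem_of_mem_left
      ⟨h.1.1, h'.1.1⟩ h.2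
  · obtain ⟨j, hj⟩ := mem_iUnion.1 (h2 hx)
    exact mem_iUnion.2 ⟨j, hj, h1 hx⟩

theorem footS {j : X.ι} {e : X.K.ι} (he : e ∈ S.fro) {x y : E3}
    (hy : y ∈ Fr.P ∩ (S.ν j).W ∩ X.K.cell e) (hx : x ∈ (Fr.z y).half.B) :
    (S.ν j).M (x, 0) = y := by
  obtain ⟨h1, h2⟩ := S.mt j e he y hy
  obtain ⟨ε, -, -, h3⟩ := h2 x hx (h1 hx)
  obtain ⟨e, -, h4, -, -, h5, -⟩ := Fr.wire y hy.1.1
  have h6 := h3 0 zero_mem
  have h7 : (Fr.z y).half.M (x, 0) ∈ (Fr.z y).half.W := ((bas E3).half_ok h4).Mmem x hx 0 zero_mem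
  rw [(bas E3).half_W, h5, ← h6, mul_zero] at h7
  exact h7

theorem restS (T : Trace Fr D) {a : T.α} (hf : T.face a ∈ S.fro) {j : X.ι}
    (hj : T.A a ⊆ (S.ν j).W ∩ X.K.cell (T.face a)) :
    IsClosed (((S.ν j).W ∩ X.K.cell (T.face a)) \ T.A a) :=
  lev_arc ((bas E3).lev (S.on j) (S.sub _ hf) (T.dim_face a ▸ X.K.ball (T.face a)) (S.keep j _ hf)
    (keep_bd S j hf)) (T.arc a) hj (T.ends a)

theorem oneS (hS : State Fr D) (T : Trace Fr D) {a : T.α} (hf : T.face a ∈ S.fro)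
    (hU : ¬ X.K.cell (T.face a) ⊆ X.U) {j : X.ι}
    (hj : T.A a ⊆ (S.ν j).W ∩ X.K.cell (T.face a)) :
    One T (T.face a) a ((S.ν j).restr (X.K.cell (T.face a)) (T.A a)) ∧
      ((S.ν j).restr (X.K.cell (T.face a)) (T.A a)).W = T.A a := by
  obtain ⟨r1, r2, r3⟩ := (bas E3).restr (S.on j).ok ((bas E3).on_in (S.on j)) (S.sub _ hf)
    (X.K.isCompact_cell _) (X.K.locCone_cell _) (S.keep j _ hf) hj
    (T.arc a).isCompact (T.arc a).conBall.locCone (restS S T hf hj)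
  have he : ∀ y ∈ ({T.p a, T.q a} : Set E3), y ∈ Fr.P ∩ (S.ν j).W ∩ X.K.cell (T.face a) :=
    fun y hy => ⟨⟨(ends hS T hy).2.2.2, (hj (ends hS T hy).1).1⟩, (hj (ends hS T hy).1).2⟩
  have hz : ∀ y ∈ ({T.p a, T.q a} : Set E3), (Fr.z y).half.B ⊆
      ((S.ν j).restr (X.K.cell (T.face a)) (T.A a)).B ∩ X.K.bd (T.face a) := by
    intro y hy x hx
    have h1 := (zone (T.dim_face a) (he y hy).1.1 (ends hS T hy).2.1).2.1.1 hx.1
    refine ⟨⟨⟨(S.mt j _ hf y (he y hy)).1 hx, X.K.bd_subset _ h1⟩, ?_⟩, h1⟩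
    rw [footS S hf (he y hy) hx]
    exact (ends hS T hy).1
  refine ⟨⟨⟨r1, r2⟩, r3.symm ▸ T.arc a, Subset.antisymm (fun x hx => ?_)
    (union_subset (hz _ (Or.inl rfl)) (hz _ (Or.inr rfl))),
    ⟨fun x hx hx' => (S.mt j _ hf _ (he _ (Or.inl rfl))).2 x hx hx'.1.1,
      fun x hx hx' => (S.mt j _ hf _ (he _ (Or.inr rfl))).2 x hx hx'.1.1⟩,
    fun h => absurd h hU, (S.lip₂ j _ hf (T.dim_face a)).mono fun x hx => hx.1⟩, r3⟩
  obtain ⟨e', e1, e2, e3⟩ := X.K.exists_face_bd hx.2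
  have e4 : e' ∈ S.fro := S.face _ hf e' (e2.trans (X.K.bd_subset _))
  rw [T.dim_face] at e3
  obtain ⟨y, hy, hx'⟩ := S.wire j e' e4 (by omega) x ⟨hx.1.1.1, e1.1⟩
  obtain ⟨e, h2, -, -, h3, h4, -⟩ := Fr.wire y hy.1
  have h5 : y ∈ (Fr.z y).W := h4 ▸ mem_singleton y
  have h7 : e = e' := X.K.ocell_unique (h3 hx'.1) e1
  have h1 : y ∈ T.A a := footS S e4 ⟨hy, h7 ▸ (h3 h5.1).1⟩ hx' ▸ hx.1.2
  have h6 : y ∈ T.A a ∩ X.K.bd (T.face a) := ⟨h1, e2 (h7 ▸ (h3 h5.1).1)⟩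
  rw [T.ends a] at h6
  rcases h6 with rfl | rfl
  exacts [Or.inl hx', Or.inr hx']

theorem disjS (hS : State Fr D) (T : Trace Fr D) {a a' : T.α} (hf : T.face a ∈ S.fro)
    (hU : ¬ X.K.cell (T.face a) ⊆ X.U) (h : a ≠ a') (e : T.face a' = T.face a) {j j' : X.ι}
    (hj : T.A a ⊆ (S.ν j).W ∩ X.K.cell (T.face a))
    (hj' : T.A a' ⊆ (S.ν j').W ∩ X.K.cell (T.face a)) :
    Disjoint ((S.ν j).restr (X.K.cell (T.face a)) (T.A a)).B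
      ((S.ν j').restr (X.K.cell (T.face a)) (T.A a')).B := by
  refine disjoint_left.2 fun x h1 h2 => ?_
  by_cases hjj : j = j'
  · subst hjj
    rcases isPreconnected_iff_subset_of_disjoint_closed.1 (T.arc a').isConnected.isPreconnected _ _
      (T.arc a).isClosed (restS S T hf hj) (fun y hy => (em _).imp id fun h' => ⟨hj' hy, h'⟩)
      (eq_empty_of_forall_notMem fun y hy => hy.2.2.2 hy.2.1) with h3 | h3
    · have h4 : T.p a' ∈ T.A a ∩ X.K.bd (T.face a) :=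
        ⟨h3 (T.arc a').left_mem, e ▸ (ends hS T (a := a') (Or.inl rfl)).2.1⟩
      rw [T.ends a] at h4
      exact disjoint_left.1 (ends_disj hS T h e.symm) h4 (Or.inl rfl)
    · exact (h3 h2.2).2 h1.2
  · exact (S.disj j j' hjj _ hf hU).notMem_of_mem_left ⟨h1.1.1, h2.1.1⟩ h1.1.2

/-- the natural form of the band of an arc -/
def Nt (T : Trace Fr D) (φ : X.K.ι) (a : T.α) (b : Band E3) : Prop :=
  ∃ j, T.A a ⊆ (S.ν j).W ∧ b.W = T.A a ∧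
    (∀ x, x ∈ b.B ↔ x ∈ (S.ν j).B ∩ X.K.cell φ ∧ (S.ν j).M (x, 0) ∈ T.A a) ∧ Match b (S.ν j)

theorem faceS (h : FACEM c₀) (hS : State Fr D) (hI : S.Inv D) (T : Trace Fr D) (φ : X.K.ι) :
    ∃ β : {a // T.face a = φ} → Band E3,
    (∀ k, One T φ k.1 (β k)) ∧ (∀ k l, k ≠ l → Two T φ k.1 l.1 (β k) (β l)) ∧
    (φ ∈ S.fro → (∀ k, Nt S T φ k.1 (β k)) ∧
      (¬ X.K.cell φ ⊆ X.U → ∀ k l, k ≠ l → Disjoint (β k).B (β l).B)) := by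
  by_cases hU : X.K.cell φ ⊆ X.U
  · refine ⟨fun k => (Fr.nb (T.lab k.1)).restr (X.K.cell φ) (T.A k.1), ?_, ?_, fun _ =>
      ⟨?_, fun h' => absurd hU h'⟩⟩
    · rintro ⟨a, rfl⟩
      exact one hS T hU
    · rintro ⟨a, rfl⟩ ⟨a', ha'⟩ hkl
      exact two hS T hU (fun e => hkl (Subtype.ext e)) ha'
    · rintro ⟨a, rfl⟩
      obtain ⟨e1, e2, e3⟩ := S.ext (T.lab a)
      have e4 : ∀ x ∈ (Fr.nb (T.lab a)).B, x ∈ (S.ν (T.lab a)).B ∩ X.U := fun x hx => e1.ge hx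
      refine ⟨T.lab a, fun x hx => ?_, ((one hS T hU).2.2.2.2.1 hU).2, fun x => ⟨fun hx => ?_,
        fun hx => ?_⟩, fun x hx _ => ⟨1, Or.inl rfl, ?_, fun s hs => ?_⟩⟩
      · have h1 := (sub_W hS T hU hx).1
        exact ⟨(e4 x h1.1).1, (e2 x (e4 x h1.1).2).trans h1.2⟩
      · exact ⟨⟨(e4 x hx.1.1).1, hx.1.2⟩, (e3 x hx.1.1 0 zero_mem).symm ▸ hx.2⟩
      · have h1 : x ∈ (Fr.nb (T.lab a)).B := e1.le ⟨hx.1.1, hU hx.1.2⟩
        exact ⟨⟨h1, hx.1.2⟩, e3 x h1 0 zero_mem ▸ hx.2⟩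
      · rw [one_mul]
        exact e2 x (e4 x hx.1.1).2
      · rw [one_mul]
        exact e3 x hx.1.1 s hs
  by_cases hd : X.K.dim φ = 2
  swap
  · exact ⟨fun k => (hd (k.2 ▸ T.dim_face k.1)).elim, fun k => (hd (k.2 ▸ T.dim_face k.1)).elim,
      fun k => (hd (k.2 ▸ T.dim_face k.1)).elim, fun _ =>
      ⟨fun k => (hd (k.2 ▸ T.dim_face k.1)).elim, fun _ k => (hd (k.2 ▸ T.dim_face k.1)).elim⟩⟩
  by_cases hf : φ ∈ S.fro
  swap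
  · obtain ⟨β, h1, h2⟩ := free' h hS T hd hU (S.L_ge φ hd.ge hf hU)
    exact ⟨β, h1, h2, fun h' => absurd h' hf⟩
  have hl : ∀ k : {a // T.face a = φ}, ∃ j, T.A k.1 ⊆ (S.ν j).W ∩ X.K.cell φ := by
    rintro ⟨a, rfl⟩
    exact one_label S hf hU (T.arc a).isConnected.isPreconnected ⟨_, (T.arc a).left_mem⟩
      (fun x hx => (T.sub a hx).2) fun x hx => hI _ _ hf hd.le (T.sub a hx)
  choose j hj using hl
  have hdis : ∀ k l : {a // T.face a = φ}, k ≠ l →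
      Disjoint ((S.ν (j k)).restr (X.K.cell φ) (T.A k.1)).B
        ((S.ν (j l)).restr (X.K.cell φ) (T.A l.1)).B := by
    rintro ⟨a, rfl⟩ ⟨a', ha'⟩ hkl
    exact disjS S hS T hf hU (fun e => hkl (Subtype.ext e)) ha' (hj ⟨a, rfl⟩) (hj ⟨a', ha'⟩)
  have hone : ∀ k : {a // T.face a = φ},
      One T φ k.1 ((S.ν (j k)).restr (X.K.cell φ) (T.A k.1)) ∧
      ((S.ν (j k)).restr (X.K.cell φ) (T.A k.1)).W = T.A k.1 := by
    rintro ⟨a, rfl⟩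
    exact oneS S hS T hf hU (hj ⟨a, rfl⟩)
  refine ⟨fun k => (S.ν (j k)).restr (X.K.cell φ) (T.A k.1), fun k => (hone k).1,
    fun k l hkl => ⟨(bas E3).comm_of_disjoint (hone k).1.1.1 (hdis k l hkl), fun _ => hdis k l hkl,
      fun _ x hx => absurd hx.2.1 ((hdis k l hkl).notMem_of_mem_left hx.1.1)⟩,
    fun _ => ⟨fun k => ⟨j k, fun x hx => (hj k hx).1, (hone k).2, fun x => Iff.rfl,
      fun x _ _ => ⟨1, Or.inl rfl, (one_mul _).symm, fun s _ => by rw [one_mul]; rfl⟩⟩,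
      fun _ => hdis⟩⟩

theorem facesG_of {c : ℝ≥0} (h : FACEM c) : FACESG c := by
  intro X c₁ Fr S D hS hI T
  choose β h1 h2 h4 using faceS S h hS hI T
  have e : ∀ a' φ (hφ : T.face a' = φ), β _ ⟨a', rfl⟩ = β φ ⟨a', hφ⟩ := by
    rintro _ _ rfl
    rfl
  have h3 : ∀ a a', a ≠ a' → T.face a = T.face a' →
      Two T (T.face a) a a' (β _ ⟨a, rfl⟩) (β _ ⟨a', rfl⟩) := fun a a' hne hf => by
    rw [e a' _ hf.symm]
    exact h2 _ ⟨a, rfl⟩ ⟨a', hf.symm⟩ fun e' => hne (congrArg Subtype.val e')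
  refine ⟨fun a => β _ ⟨a, rfl⟩, ⟨fun a => (h1 _ ⟨a, rfl⟩).1, fun a => (h1 _ ⟨a, rfl⟩).2.1,
    fun a => (h1 _ ⟨a, rfl⟩).2.2.1, fun a => (h1 _ ⟨a, rfl⟩).2.2.2.1,
    fun a a' h h' => (h3 a a' h h').1, fun a a' h h' => (h3 a a' h h').2.1,
    fun a a' h h' => (h3 a a' h h').2.2, fun a => (h1 _ ⟨a, rfl⟩).2.2.2.2.1,
    fun a => (h1 _ ⟨a, rfl⟩).2.2.2.2.2⟩, fun a ha => (h4 _ ha).1 ⟨a, rfl⟩,
    fun a a' hne hf ha hU => ?_⟩
  show Disjoint (β _ ⟨a, rfl⟩).B (β _ ⟨a', rfl⟩).B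
  rw [e a' _ hf.symm]
  exact (h4 _ ha).2 hU ⟨a, rfl⟩ ⟨a', hf.symm⟩ fun e' => hne (congrArg Subtype.val e')

theorem facessG_of {c₀ c : ℝ≥0} (h : FACEM c₀) (h' : FACEMS c) : FACESSG c₀ c := by
  intro X c₁ Fr S D Λ ζ 𝓢 χ hζ hζ' hW hq hS hI T
  have key : ∀ φ : X.K.ι, ∃ β : {a // T.face a = φ} → Band E3,
      (∀ k, One T φ k.1 (β k)) ∧ (∀ k l, k ≠ l → Two T φ k.1 l.1 (β k) (β l)) ∧
      (φ ∈ S.fro → (∀ k, Nt S T φ k.1 (β k)) ∧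
        (¬ X.K.cell φ ⊆ X.U → ∀ k l, k ≠ l → Disjoint (β k).B (β l).B)) ∧
      ∀ hφ : φ ∈ 𝓢, (∀ k, (β k).On (X.K.cell φ)) ∧
        ∀ [Fintype {a // T.face a = φ}] (ε : {a // T.face a = φ} → ℝ),
          (∀ k, ε k = 1 ∨ ε k = -1) →
          Shp (stair (fun k : {a // T.face a = φ} => co₂ X (T.lab k.1)) ε
            fun k v => (β k).half.u ((χ φ hφ).invFun v)) (Λ φ) ζ c := by
    intro φ
    by_cases hφ : φ ∈ 𝓢
    · obtain ⟨β, h1, h2, h3, h4⟩ := sharp h' hS T hζ hζ' hW (hq φ hφ)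
      exact ⟨β, h1, h2, fun hf => absurd hf ((hq φ hφ).free φ Subset.rfl
        (by rw [(hq φ hφ).dim]; norm_num)), fun _ => ⟨h3, h4⟩⟩
    · obtain ⟨β, h1, h2, h3⟩ := faceS S h hS hI T φ
      exact ⟨β, h1, h2, h3, fun h4 => absurd h4 hφ⟩
  choose β h1 h2 h4 h5 using key
  have e : ∀ a' φ (hφ : T.face a' = φ), β _ ⟨a', rfl⟩ = β φ ⟨a', hφ⟩ := by
    rintro _ _ rfl
    rfl
  have h3 : ∀ a a', a ≠ a' → T.face a = T.face a' →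
      Two T (T.face a) a a' (β _ ⟨a, rfl⟩) (β _ ⟨a', rfl⟩) := fun a a' hne hf => by
    rw [e a' _ hf.symm]
    exact h2 _ ⟨a, rfl⟩ ⟨a', hf.symm⟩ fun e' => hne (congrArg Subtype.val e')
  refine ⟨fun a => β _ ⟨a, rfl⟩, ⟨fun a => (h1 _ ⟨a, rfl⟩).1, fun a => (h1 _ ⟨a, rfl⟩).2.1,
    fun a => (h1 _ ⟨a, rfl⟩).2.2.1, fun a => (h1 _ ⟨a, rfl⟩).2.2.2.1,
    fun a a' h h' => (h3 a a' h h').1, fun a a' h h' => (h3 a a' h h').2.1,
    fun a a' h h' => (h3 a a' h h').2.2, fun a => (h1 _ ⟨a, rfl⟩).2.2.2.2.1,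
    fun a => (h1 _ ⟨a, rfl⟩).2.2.2.2.2⟩, ⟨fun a ha => (h4 _ ha).1 ⟨a, rfl⟩,
    fun a a' hne hf ha hU => ?_⟩, fun φ hφ => ⟨fun a ha => ?_, fun ε hε => ?_⟩⟩
  · show Disjoint (β _ ⟨a, rfl⟩).B (β _ ⟨a', rfl⟩).B
    rw [e a' _ hf.symm]
    exact (h4 _ ha).2 hU ⟨a, rfl⟩ ⟨a', hf.symm⟩ fun e' => hne (congrArg Subtype.val e')
  · show (β _ ⟨a, rfl⟩).On _
    rw [e a φ ha]
    exact (h5 φ hφ).1 ⟨a, ha⟩
  · have e' : (fun (k : {a // T.face a = φ}) v => (β _ ⟨k.1, rfl⟩).half.u ((χ φ hφ).invFun v)) =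
        fun k v => (β φ k).half.u ((χ φ hφ).invFun v) := by
      funext k v
      rw [e k.1 φ k.2]
    exact e' ▸ (h5 φ hφ).2 ε hε

end P073.Wg
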